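import Vale.Agent.P150.Fast.Site.Base

/-!
Concentration of window functionals along the reference alternation: proof of `SiteTestStmt`.
Used for P150.
-/

open MeasureTheory Real Finset
open scoped Matrix

namespace Vale.Agent.P150.Fast

variable {n : ℕ}

/-- The mean of the product at one site, from a start. -/
noncomputable def siteMean (K : Matrix (Fin n) (Fin n) ℝ) (F : Fin n → ℝ → ℝ) :
    {r : ℕ} → (Fin r → Step n) → (Fin r → Fin n → ℝ → ℝ → Bool → ℝ) → Conf n → Fin n → ℝ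
  | 0, _, _, x, i => F i ((K *ᵥ vec x) i)
  | _ + 1, σ, ψ, x, i => testOp (σ 0) (fun y z => ψ 0 i (((σ 0).A⁻¹ *ᵥ y) i) (y i) (z i)
      * siteMean K F (Fin.tail σ) (Fin.tail ψ) z i) x

/-- The mean of the window functional. -/
noncomputable def siteTotal {r : ℕ} (K : Matrix (Fin n) (Fin n) ℝ) (σ : Fin r → Step n)
    (ψ : Fin r → Fin n → ℝ → ℝ → Bool → ℝ) (F : Fin n → ℝ → ℝ) (c : Fin n → ℝ) (x : Conf n) : ℝ :=
  (n : ℝ)⁻¹ * ∑ i, c i * siteMean K F σ ψ x i

/-- The hypotheses on a window. -/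
def SiteHyp {r : ℕ} (L lam B : ℝ) (σ : Fin r → Step n) (K : Matrix (Fin n) (Fin n) ℝ)
    (ψ : Fin r → Fin n → ℝ → ℝ → Bool → ℝ) (F : Fin n → ℝ → ℝ) : Prop :=
  (∀ t, (σ t).Good L) ∧ (∀ t (v : Fin n → ℝ), lam * ∑ i, v i ^ 2 ≤ v ⬝ᵥ ((σ t).A *ᵥ v)) ∧
  K.transpose = K ∧ (∀ v : Fin n → ℝ, |v ⬝ᵥ (K *ᵥ v)| ≤ L * ∑ i, v i ^ 2) ∧
  (∀ b i, SmoothBd2 B (ψ b i)) ∧ ∀ i, SmoothBd B (F i)

/-- The conclusion at one length, with its constants. -/
def SiteConcl (r : ℕ) (L lam B C Γ P : ℝ) : Prop :=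
  ∀ (n : ℕ) (σ : Fin r → Step n) (K : Matrix (Fin n) (Fin n) ℝ)
    (ψ : Fin r → Fin n → ℝ → ℝ → Bool → ℝ) (F : Fin n → ℝ → ℝ), SiteHyp L lam B σ K ψ F →
    (∀ z i, |siteMean K F σ ψ z i| ≤ P) ∧
    ∀ (c : Fin n → ℝ),
      (∀ z, grad2 (siteTotal K σ ψ F c) z ≤ Γ * ((∑ i, c i ^ 2) / (n : ℝ) ^ 2)) ∧
      ∀ x : Conf n,
        (∀ ω, |siteTest K σ ψ F c x ω| ≤ P * ((n : ℝ)⁻¹ * ∑ i, |c i|)) ∧
        Measurable (siteTest K σ ψ F c x) ∧
        pathE qR σ x (siteTest K σ ψ F c x) = siteTotal K σ ψ F c x ∧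
        ∀ l : ℝ, pathE qR σ x (fun ω => exp (l * siteTest K σ ψ F c x ω))
          ≤ exp (l * siteTotal K σ ψ F c x + C * l ^ 2 * ((∑ i, c i ^ 2) / (n : ℝ) ^ 2))

theorem siteTest_cons {r : ℕ} (K : Matrix (Fin n) (Fin n) ℝ) (σ : Fin (r + 1) → Step n)
    (ψ : Fin (r + 1) → Fin n → ℝ → ℝ → Bool → ℝ) (F : Fin n → ℝ → ℝ) (c : Fin n → ℝ) (x : Conf n)
    (y : Fin n → ℝ) (z : Conf n) (ω : Fin r → (Fin n → ℝ) × Conf n) :
    siteTest K σ ψ F c x (Fin.cons (y, z) ω)
      = siteTest K (Fin.tail σ) (Fin.tail ψ) F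
          (fun i => c i * ψ 0 i (((σ 0).A⁻¹ *ᵥ y) i) (y i) (z i)) z ω := by
  have he : endAt x (Fin.cons (y, z) ω : Fin (r + 1) → (Fin n → ℝ) × Conf n) = endAt z ω := by
    simp only [endAt, ← Fin.succ_last, Fin.cons_succ]
    generalize Fin.last r = j
    induction j using Fin.cases <;> simp
  simp only [siteTest, he, Fin.prod_univ_succ, Fin.cons_zero, Fin.cons_succ, Fin.tail]
  congr 1
  exact sum_congr rfl fun i _ => by ring

theorem smooth2_cont {B : ℝ} {ψ : ℝ → ℝ → Bool → ℝ} (h : SmoothBd2 B ψ) (b : Bool) :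
    Continuous fun p : ℝ × ℝ => ψ p.1 p.2 b := by
  obtain ⟨d₁, d₂, c₁, c₂, hd⟩ := h
  exact (two_var_deriv (ψ := fun u v => ψ u v b) (c₁ b) (c₂ b) (fun u v => (hd u v b).1)
    fun u v => (hd u v b).2.1).1

theorem site_zero {L lam B : ℝ} (hL : 0 ≤ L) (hB : 0 ≤ B) :
    SiteConcl 0 L lam B 0 (2 * L ^ 2 * B ^ 2 + 8 * B ^ 2 * L ^ 4) B := by
  intro n σ K ψ F ⟨_, _, hK, hKb, _, hF⟩
  have hFb : ∀ i u, |F i u| ≤ B := fun i u => by
    obtain ⟨F', F'', -, -, -, h⟩ := hF i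
    exact (h u).1
  refine ⟨fun z i => hFb i _, fun c => ⟨fun z => base_grad hK hL hKb hB hF c z, fun x => ?_⟩⟩
  have he : ∀ ω : Fin 0 → (Fin n → ℝ) × Conf n, siteTest K σ ψ F c x ω = siteTotal K σ ψ F c x := fun ω => by
    simp [siteTest, siteTotal, siteMean, endAt]
  refine ⟨fun ω => ?_, ?_, he _, fun l => by simp [pathE, he]⟩
  · rw [he, siteTotal, abs_mul, abs_inv, Nat.abs_cast, mul_left_comm B]
    refine mul_le_mul_of_nonneg_left ?_ (inv_nonneg.2 (Nat.cast_nonneg n))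
    rw [mul_sum]
    refine (abs_sum_le_sum_abs _ _).trans (sum_le_sum fun i _ => ?_)
    rw [abs_mul, mul_comm B]
    exact mul_le_mul_of_nonneg_left (hFb i _) (abs_nonneg _)
  · rw [funext he]; exact measurable_const

theorem pair_err {c ψp ψm ψz φp φm B P : ℝ} (hB : 0 ≤ B) (h1 : |ψp| ≤ B) (h2 : |ψm| ≤ B) (h3 : |ψz| ≤ B)
    (h4 : |φp| ≤ P) (h5 : |φm| ≤ P) :
    |(c * ψp * φp - c * ψm * φm) / 2 - c * ψz * ((φp - φm) / 2)| ≤ 2 * (B * P) * |c| := by
  have e : (c * ψp * φp - c * ψm * φm) / 2 - c * ψz * ((φp - φm) / 2)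
      = c * ((ψp - ψz) / 2 * φp + (ψz - ψm) / 2 * φm) := by ring
  rw [e, abs_mul, mul_comm]
  refine mul_le_mul_of_nonneg_right ?_ (abs_nonneg c)
  have a1 : |(ψp - ψz) / 2| ≤ B := by
    rw [abs_div, abs_two, div_le_iff₀ two_pos]; linarith [abs_sub ψp ψz]
  have a2 : |(ψz - ψm) / 2| ≤ B := by
    rw [abs_div, abs_two, div_le_iff₀ two_pos]; linarith [abs_sub ψz ψm]
  refine (abs_add_le _ _).trans ?_
  rw [abs_mul, abs_mul, two_mul]
  exact add_le_add (mul_le_mul a1 h4 (abs_nonneg _) hB) (mul_le_mul a2 h5 (abs_nonneg _) hB)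

theorem site_succ {r : ℕ} {L lam B C Γ P : ℝ} (hL : 0 ≤ L) (hlam : 0 < lam) (hB : 0 ≤ B) (hC : 0 ≤ C)
    (hΓ : 0 ≤ Γ) (hP : 0 ≤ P) (ih : SiteConcl r L lam B C Γ P) :
    SiteConcl (r + 1) L lam B
      (C * B ^ 2 + mgfC L * (2 * Γ * B ^ 2 + 8 * (B * P) ^ 2 + 2 * (B * P) ^ 2 * (1 / lam ^ 2 + 1)))
      (curvC L * (2 * Γ * B ^ 2 + 8 * (B * P) ^ 2 + 2 * (B * P) ^ 2 * (1 / lam ^ 2 + 1)))
      (B * P) := by
  intro n σ K ψ F ⟨hσ, hl, hK, hKb, hψ, hF⟩
  have hyp : SiteHyp L lam B (Fin.tail σ) K (Fin.tail ψ) F :=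
    ⟨fun t => hσ t.succ, fun t => hl t.succ, hK, hKb, fun t => hψ t.succ, hF⟩
  obtain ⟨hφ, hrec⟩ := ih n (Fin.tail σ) K (Fin.tail ψ) F hyp
  set φ := siteMean K F (Fin.tail σ) (Fin.tail ψ) with hφdef
  set s := σ 0 with hs
  choose d₁ d₂ c₁ c₂ hd using hψ 0
  set w : Fin n → (Fin n → ℝ) → Conf n → ℝ := fun i y z => ψ 0 i ((s.A⁻¹ *ᵥ y) i) (y i) (z i) with hw
  have hwb : ∀ i y z, |w i y z| ≤ B := fun i y z => (hd i _ _ _).2.2.1
  have hwc : ∀ i z, Continuous fun y => w i y z := fun i z => by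
    have := (smooth2_cont (hψ 0 i) (z i)).comp
      ((show Continuous fun y : Fin n → ℝ => ((s.A⁻¹ *ᵥ y) i, y i) by
        simp only [Matrix.mulVec, dotProduct]; fun_prop))
    exact this
  have hgi : ∀ i x, Integrable fun y => chan s.A x y * ∑ z, qR s x y z * (w i y z * φ z i) := fun i x =>
    chanV_bdd (hσ 0).1 _ (Finset.measurable_sum _ fun z _ =>
      (measurable_prodS s.h s.S x z).mul ((hwc i z).measurable.mul_const _)) (M := B * P) fun y =>
      avg_bound (fun z => prodS_nonneg _ x _ z) (sum_prodS _ x _) fun z => by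
        rw [abs_mul]; exact mul_le_mul (hwb i y z) (hφ z i) (abs_nonneg _) hB
  have hmean : ∀ z i, |siteMean K F σ ψ z i| ≤ B * P := fun z i =>
    chanV_int_bound' (hσ 0).1 _ (Finset.measurable_sum _ fun u _ =>
      (measurable_prodS s.h s.S z u).mul ((hwc i u).measurable.mul_const _)) fun y =>
      avg_bound (fun u => prodS_nonneg _ z _ u) (sum_prodS _ z _) fun u => by
        rw [abs_mul]; exact mul_le_mul (hwb i y u) (hφ u i) (abs_nonneg _) hB
  refine ⟨hmean, fun c => ?_⟩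
  set S2 := (∑ i, c i ^ 2) / (n : ℝ) ^ 2 with hS2
  have hS0 : 0 ≤ S2 := div_nonneg (sum_nonneg fun i _ => sq_nonneg _) (sq_nonneg _)
  set cy : (Fin n → ℝ) → Conf n → Fin n → ℝ := fun y z i => c i * w i y z with hcy
  have hcy2 : ∀ y z, (∑ i, cy y z i ^ 2) / (n : ℝ) ^ 2 ≤ B ^ 2 * S2 := fun y z => by
    rw [hS2, ← mul_div_assoc, mul_sum]
    refine div_le_div_of_nonneg_right (sum_le_sum fun i _ => ?_) (sq_nonneg _)
    simp only [hcy, mul_pow]
    rw [mul_comm]
    exact mul_le_mul_of_nonneg_right (sq_le_sq.2 ((hwb i y z).trans (le_abs_self B))) (sq_nonneg _)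
  set G : (Fin n → ℝ) → Conf n → ℝ := fun y z => siteTotal K (Fin.tail σ) (Fin.tail ψ) F (cy y z) z with hG
  set dG : (Fin n → ℝ) → Conf n → Fin n → ℝ := fun y z k => (n : ℝ)⁻¹ *
    ((s.A⁻¹ *ᵥ fun i => c i * φ z i * d₁ i ((s.A⁻¹ *ᵥ y) i) (y i) (z i)) k
      + c k * φ z k * d₂ k ((s.A⁻¹ *ᵥ y) k) (y k) (z k)) with hdG
  set a := (2 * Γ * B ^ 2 + 8 * (B * P) ^ 2) * S2 with ha
  set b := 2 * (B * P) ^ 2 * (1 / lam ^ 2 + 1) * S2 with hb
  have hsymA : (s.A⁻¹).transpose = s.A⁻¹ := by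
    rw [Matrix.transpose_nonsing_inv, posDef_symm (hσ 0).1]
  have hT : TestD G dG a b := by
    refine ⟨fun y z => ?_, fun z i => ?_, fun y z => ?_, fun y z v => ?_⟩
    · set e : Fin n → ℝ := fun j => dgrad (G y) j z
        - dgrad (siteTotal K (Fin.tail σ) (Fin.tail ψ) F (cy y z)) j z with he
      have heb : ∀ j, |e j| ≤ (n : ℝ)⁻¹ * (2 * (B * P) * |c j|) := fun j => by
        have e1 : e j = (n : ℝ)⁻¹ * ((c j * w j y (Function.update z j true) * φ (Function.update z j true) j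
              - c j * w j y (Function.update z j false) * φ (Function.update z j false) j) / 2
            - c j * w j y z * ((φ (Function.update z j true) j - φ (Function.update z j false) j) / 2)) := by
          have hsame : ∀ b i, i ≠ j → cy y (Function.update z j b) i = cy y z i := fun b i hi => by
            simp only [hcy, hw, Function.update_of_ne hi]
          have hE2 : ∀ b, ∑ i ∈ univ.erase j, cy y (Function.update z j b) i * φ (Function.update z j b) i
              = ∑ i ∈ univ.erase j, cy y z i * φ (Function.update z j b) i := fun b =>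
            sum_congr rfl fun i hi => by rw [hsame b i (ne_of_mem_erase hi)]
          simp only [he, dgrad, hG, siteTotal, ← hφdef]
          rw [← add_sum_erase _ _ (mem_univ j), ← add_sum_erase _
              (fun i => cy y (Function.update z j false) i * φ (Function.update z j false) i) (mem_univ j),
            ← add_sum_erase _ (fun i => cy y z i * φ (Function.update z j true) i) (mem_univ j),
            ← add_sum_erase _ (fun i => cy y z i * φ (Function.update z j false) i) (mem_univ j),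
            hE2 true, hE2 false]
          simp only [hcy]
          ring
        rw [e1, abs_mul, abs_inv, Nat.abs_cast]
        exact mul_le_mul_of_nonneg_left (pair_err hB (hwb _ _ _) (hwb _ _ _) (hwb _ _ _) (hφ _ _) (hφ _ _))
          (inv_nonneg.2 (Nat.cast_nonneg n))
      have h1 : ∑ j, e j ^ 2 ≤ 4 * (B * P) ^ 2 * S2 := by
        refine (sum_le_sum fun j _ => sq_le_sq.2 ((heb j).trans (le_abs_self _))).trans (le_of_eq ?_)
        rw [hS2, ← mul_div_assoc, mul_sum, sum_div]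
        exact sum_congr rfl fun j _ => by rw [mul_pow, mul_pow, sq_abs, inv_pow]; ring
      have h2 := ((hrec (cy y z)).1 z).trans (mul_le_mul_of_nonneg_left (hcy2 y z) hΓ)
      calc grad2 (G y) z
          = ∑ j, (dgrad (siteTotal K (Fin.tail σ) (Fin.tail ψ) F (cy y z)) j z + e j) ^ 2 := by
            simp only [he, add_sub_cancel]; rfl
        _ ≤ ∑ j, 2 * (dgrad (siteTotal K (Fin.tail σ) (Fin.tail ψ) F (cy y z)) j z ^ 2 + e j ^ 2) :=
            sum_le_sum fun j _ => add_sq_le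
        _ ≤ a := by
            rw [← mul_sum, sum_add_distrib, ha]
            have : grad2 (siteTotal K (Fin.tail σ) (Fin.tail ψ) F (cy y z)) z
                = ∑ j, dgrad (siteTotal K (Fin.tail σ) (Fin.tail ψ) F (cy y z)) j z ^ 2 := rfl
            linarith
    · have h₁ := fun k => (c₁ k (z k)).comp (show Continuous fun y : Fin n → ℝ => ((s.A⁻¹ *ᵥ y) k, y k) by
        simp only [Matrix.mulVec, dotProduct]; fun_prop)
      have h₂ := fun k => (c₂ k (z k)).comp (show Continuous fun y : Fin n → ℝ => ((s.A⁻¹ *ᵥ y) k, y k) by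
        simp only [Matrix.mulVec, dotProduct]; fun_prop)
      simp only [Function.comp_def] at h₁ h₂
      simp only [hdG]
      refine continuous_const.mul ((show Continuous fun y => (s.A⁻¹ *ᵥ fun k => c k * φ z k
        * d₁ k ((s.A⁻¹ *ᵥ y) k) (y k) (z k)) i from ?_).add (continuous_const.mul (h₂ i)))
      simp only [Matrix.mulVec, dotProduct] at h₁ ⊢
      exact continuous_finsetSum _ fun k _ => continuous_const.mul (continuous_const.mul (h₁ k))
    · set p : Fin n → ℝ := fun i => c i * φ z i * d₁ i ((s.A⁻¹ *ᵥ y) i) (y i) (z i) with hp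
      set q : Fin n → ℝ := fun i => c i * φ z i * d₂ i ((s.A⁻¹ *ᵥ y) i) (y i) (z i) with hq
      have hb2 : ∀ (d : Fin n → ℝ), (∀ i, |d i| ≤ B) →
          ∑ i, (c i * φ z i * d i) ^ 2 ≤ (B * P) ^ 2 * ∑ i, c i ^ 2 := fun d hd' => by
        rw [mul_sum]
        refine sum_le_sum fun i _ => ?_
        rw [mul_assoc, mul_pow, mul_comm ((B * P) ^ 2)]
        refine mul_le_mul_of_nonneg_left (sq_le_sq.2 ((le_of_eq (abs_mul _ _)).trans ?_)) (sq_nonneg _)
        rw [abs_of_nonneg (mul_nonneg hB hP), mul_comm B]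
        exact mul_le_mul (hφ z i) (hd' i) (abs_nonneg _) hP
      have hp2 := hb2 (fun i => d₁ i ((s.A⁻¹ *ᵥ y) i) (y i) (z i)) fun i => (hd i _ _ _).2.2.2.1
      have hq2 := hb2 (fun i => d₂ i ((s.A⁻¹ *ᵥ y) i) (y i) (z i)) fun i => (hd i _ _ _).2.2.2.2
      calc ∑ k, dG y z k ^ 2 = ((n : ℝ)⁻¹) ^ 2 * ∑ k, ((s.A⁻¹ *ᵥ p) k + q k) ^ 2 := by
            rw [mul_sum]; exact sum_congr rfl fun k _ => by rw [← mul_pow]
        _ ≤ ((n : ℝ)⁻¹) ^ 2 * ∑ k, 2 * ((s.A⁻¹ *ᵥ p) k ^ 2 + q k ^ 2) :=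
            mul_le_mul_of_nonneg_left (sum_le_sum fun k _ => add_sq_le) (sq_nonneg _)
        _ ≤ ((n : ℝ)⁻¹) ^ 2 * (2 * (1 / lam ^ 2 * ((B * P) ^ 2 * ∑ i, c i ^ 2) + (B * P) ^ 2 * ∑ i, c i ^ 2)) := by
            refine mul_le_mul_of_nonneg_left ?_ (sq_nonneg _)
            rw [← mul_sum, sum_add_distrib]
            exact mul_le_mul_of_nonneg_left (add_le_add ((inv_mulVec_sq_le (hσ 0).1 hlam (hl 0) p).trans
              (mul_le_mul_of_nonneg_left hp2 (by positivity))) hq2) zero_le_two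
        _ = b := by rw [hb, hS2, inv_pow]; ring
    · have hi : ∀ i, HasDerivAt (fun t : ℝ => c i * w i (y + t • v) z * φ z i)
          (c i * (d₁ i ((s.A⁻¹ *ᵥ y) i) (y i) (z i) * (s.A⁻¹ *ᵥ v) i
            + d₂ i ((s.A⁻¹ *ᵥ y) i) (y i) (z i) * v i) * φ z i) 0 := fun i => by
        have h := (two_var_deriv (ψ := fun p q => ψ 0 i p q (z i)) (c₁ i (z i)) (c₂ i (z i))
          (fun p q => (hd i p q (z i)).1) (fun p q => (hd i p q (z i)).2.1)).2
          ((s.A⁻¹ *ᵥ y) i) (y i) ((s.A⁻¹ *ᵥ v) i) (v i)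
        refine ((h.const_mul (c i)).mul_const (φ z i)).congr_of_eventuallyEq
          (Filter.Eventually.of_forall fun t => ?_)
        simp [hw, Matrix.mulVec_add, Matrix.mulVec_smul]
      refine ((HasDerivAt.fun_sum (u := univ) fun i _ => hi i).const_mul (n : ℝ)⁻¹).congr_deriv ?_
      have hsw : ∀ p : Fin n → ℝ, ∑ i, p i * (s.A⁻¹ *ᵥ v) i = ∑ k, (s.A⁻¹ *ᵥ p) k * v k := fun p => by
        show p ⬝ᵥ (s.A⁻¹ *ᵥ v) = (s.A⁻¹ *ᵥ p) ⬝ᵥ v
        rw [Matrix.dotProduct_mulVec, ← Matrix.mulVec_transpose, hsymA]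
      simp only [hdG, mul_assoc ((n : ℝ)⁻¹), ← mul_sum]
      congr 1
      simp only [add_mul, sum_add_distrib]
      rw [← hsw, ← sum_add_distrib]
      exact sum_congr rfl fun i _ => by ring
  have hmeas : ∀ x, Measurable (siteTest K σ ψ F c x) ∧
      ∀ ω, |siteTest K σ ψ F c x ω| ≤ B * P * ((n : ℝ)⁻¹ * ∑ i, |c i|) := fun x => by
    set tl : (Fin (r + 1) → (Fin n → ℝ) × Conf n) → Fin r → (Fin n → ℝ) × Conf n := fun ω => Fin.tail ω
    have hsplit : ∀ ω, siteTest K σ ψ F c x ω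
        = siteTest K (Fin.tail σ) (Fin.tail ψ) F (cy (ω 0).1 (ω 0).2) (ω 0).2 (tl ω) := fun ω => by
      conv_lhs => rw [← Fin.cons_self_tail ω]
      exact siteTest_cons K σ ψ F c x (ω 0).1 (ω 0).2 (Fin.tail ω)
    have hj : ∀ j, Continuous fun y : Fin n → ℝ => (s.A⁻¹ *ᵥ y) j := fun j => by
      simp only [Matrix.mulVec, dotProduct]; fun_prop
    refine ⟨?_, fun ω => ?_⟩
    · rw [funext hsplit]
      have hm : ∀ z : Conf n, Measurable fun ω : Fin (r + 1) → (Fin n → ℝ) × Conf n =>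
          siteTest K (Fin.tail σ) (Fin.tail ψ) F (cy (ω 0).1 z) z (tl ω) := fun z => by
        have ht : Measurable tl := measurable_pi_lambda _ fun j => measurable_pi_apply _
        have h1 : ∀ i, Measurable fun ω : Fin (r + 1) → (Fin n → ℝ) × Conf n => cy (ω 0).1 z i := fun i =>
          ((hwc i z).measurable.const_mul (c i)).comp ((measurable_pi_apply 0).fst)
        have h2 : ∀ i, Measurable fun ω : Fin r → (Fin n → ℝ) × Conf n =>
            siteTest K (Fin.tail σ) (Fin.tail ψ) F (Pi.single i 1) z ω := fun i =>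
          ((hrec (Pi.single i 1)).2 z).2.1
        have hlin : ∀ (p : Fin n → ℝ) ω, siteTest K (Fin.tail σ) (Fin.tail ψ) F p z ω
            = ∑ i, p i * siteTest K (Fin.tail σ) (Fin.tail ψ) F (Pi.single i 1) z ω := fun p ω => by
          simp only [siteTest, mul_sum]
          refine sum_congr rfl fun i _ => ?_
          rw [sum_eq_single i (fun k _ hk => by simp [hk]) (by simp), Pi.single_eq_same]
          ring
        simp only [hlin (cy _ z)]
        exact Finset.measurable_sum _ fun i _ => (h1 i).mul ((h2 i).comp ht)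
      have hcases : (fun ω : Fin (r + 1) → (Fin n → ℝ) × Conf n =>
          siteTest K (Fin.tail σ) (Fin.tail ψ) F (cy (ω 0).1 (ω 0).2) (ω 0).2 (tl ω))
          = fun ω => ∑ z : Conf n, if (ω 0).2 = z
              then siteTest K (Fin.tail σ) (Fin.tail ψ) F (cy (ω 0).1 z) z (tl ω) else 0 := by
        funext ω; simp
      rw [hcases]
      exact Finset.measurable_sum _ fun z _ => Measurable.ite
        (measurableSet_eq_fun (measurable_pi_apply 0).snd measurable_const) (hm z) measurable_const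
    · rw [hsplit]
      refine (((hrec _).2 _).1 _).trans ?_
      rw [mul_left_comm, mul_left_comm (B * P)]
      refine mul_le_mul_of_nonneg_left ?_ (inv_nonneg.2 (Nat.cast_nonneg n))
      rw [mul_sum, mul_sum]
      refine sum_le_sum fun i _ => ?_
      simp only [hcy, abs_mul]
      rw [mul_comm B P, mul_assoc, mul_comm |c i|]
      exact mul_le_mul_of_nonneg_left (mul_le_mul_of_nonneg_right (hwb _ _ _) (abs_nonneg _)) hP
  have hTG : ∀ x, testOp s G x = siteTotal K σ ψ F c x := fun x => by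
    simp only [siteTotal, siteMean, testOp, ← hs, ← hφdef, mul_sum]
    simp only [← integral_const_mul]
    rw [← integral_finsetSum _ fun i _ => ?_]
    · refine integral_congr_ae (ae_of_all _ fun y => ?_)
      simp only [hG, siteTotal, ← hφdef, hcy, hw, mul_sum]
      rw [sum_comm]
      exact sum_congr rfl fun i _ => sum_congr rfl fun z _ => by ring
    · have := ((hgi i x).const_mul (c i)).const_mul (n : ℝ)⁻¹
      simpa only [mul_sum, hw, ← hφdef] using this
  refine ⟨fun z => ?_, fun x => ⟨(hmeas x).2, (hmeas x).1, ?_, fun l => ?_⟩⟩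
  · have e : siteTotal K σ ψ F c = testOp s G := funext fun x => (hTG x).symm
    rw [e]
    refine (((curvStep n s L hL (hσ 0)).2 G a b ⟨hT.za, dG, hT.cont, hT.yb, hT.deriv⟩).1 z).trans
      (le_of_eq ?_)
    rw [ha, hb]
    ring
  · rw [← hTG]
    show ∫ y, _ = _
    refine integral_congr_ae (ae_of_all _ fun y => ?_)
    simp only [hs]
    congr 1
    refine sum_congr rfl fun z _ => ?_
    congr 1
    simp only [siteTest_cons]
    exact ((hrec _).2 z).2.2.1
  · obtain ⟨iR, hR⟩ := mgf_step hL (hσ 0) hT x l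
    set E := exp (C * l ^ 2 * (B ^ 2 * S2)) with hE
    have hint := pathE_step_int σ (fun t => ok_qR (hσ t).1) (F := fun ω => exp (l * siteTest K σ ψ F c x ω))
      ((hmeas x).1.const_mul l).exp (M := exp (|l| * (B * P * ((n : ℝ)⁻¹ * ∑ i, |c i|)))) (fun ω => by
        rw [abs_of_pos (exp_pos _)]
        refine exp_le_exp.2 ((le_abs_self _).trans ((le_of_eq (abs_mul _ _)).trans ?_))
        exact mul_le_mul_of_nonneg_left ((hmeas x).2 ω) (abs_nonneg l)) x
    show ∫ y, chan s.A x y * ∑ z, qR s x y z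
      * pathE qR (Fin.tail σ) z (fun ω => exp (l * siteTest K σ ψ F c x (Fin.cons (y, z) ω))) ≤ _
    refine (integral_mono hint (iR.const_mul E) fun y => ?_).trans ?_
    · show chan s.A x y * _ ≤ E * (chan s.A x y * _)
      rw [mul_left_comm]
      refine mul_le_mul_of_nonneg_left ?_ (chanV_pos (hσ 0).1 _ y).le
      rw [mul_sum]
      refine sum_le_sum fun z _ => ?_
      rw [mul_left_comm]
      refine mul_le_mul_of_nonneg_left ?_ (prodS_nonneg _ x _ z)
      simp only [siteTest_cons]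
      refine (((hrec (cy y z)).2 z).2.2.2 l).trans ?_
      rw [hE, ← exp_add, add_comm (C * l ^ 2 * (B ^ 2 * S2))]
      refine exp_le_exp.2 (add_le_add le_rfl ?_)
      exact mul_le_mul_of_nonneg_left (hcy2 y z) (mul_nonneg hC (sq_nonneg l))
    · rw [integral_const_mul]
      refine (mul_le_mul_of_nonneg_left hR (exp_pos _).le).trans_eq ?_
      rw [← exp_add, hTG, ha, hb]
      ring_nf

theorem site_all (L lam B : ℝ) (hL : 0 ≤ L) (hlam : 0 < lam) (hB : 0 ≤ B) : ∀ r : ℕ,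
    ∃ C Γ P : ℝ, 0 ≤ C ∧ 0 ≤ Γ ∧ 0 ≤ P ∧ SiteConcl r L lam B C Γ P := by
  intro r
  induction r with
  | zero => exact ⟨0, _, B, le_rfl, by positivity, hB, site_zero hL hB⟩
  | succ r ih =>
    obtain ⟨C, Γ, P, hC, hΓ, hP, h⟩ := ih
    have := curvC_ge hL
    have hm : 0 ≤ mgfC L := by unfold mgfC; linarith
    exact ⟨_, _, _, by positivity, by positivity, mul_nonneg hB hP, site_succ hL hlam hB hC hΓ hP h⟩

theorem siteTestThm : SiteTestStmt := by
  intro r L lam B hL hlam hB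
  obtain ⟨C, Γ, P, hC, -, -, h⟩ := site_all L lam B hL hlam hB r
  refine ⟨C, hC, fun n σ hn hσ hl K hK hKb ψ F hψ hF c hc x l => ?_⟩
  obtain ⟨-, -, heq, hexp⟩ := ((h n σ K ψ F ⟨hσ, hl, hK, hKb, hψ, hF⟩).2 c).2 x
  rw [heq]
  refine (hexp l).trans (exp_le_exp.2 (add_le_add le_rfl ?_))
  rw [mul_div_assoc', div_le_div_iff₀ (by positivity) (by exact_mod_cast hn)]
  have h2 := mul_le_mul_of_nonneg_left hc (show 0 ≤ C * l ^ 2 * (n : ℝ) by positivity)
  linarith

end Vale.Agent.P150.Fast
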