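import Vale.Agent.P150.Fast.Cavity.Stmt
import Vale.Agent.P150.Fast.CurvChain

/-!
Preparations for the concentration of window functionals (`SiteTestStmt`): operator bounds, the
gradient of a weighted sum of tests of the coupling field, the chain rule in two variables.
Used for P150.
-/

open MeasureTheory Real Finset
open scoped Matrix

namespace Vale.Agent.P150.Fast

variable {n : ℕ}

theorem sym_mulVec_sq_le {K : Matrix (Fin n) (Fin n) ℝ} (hK : K.transpose = K) {L : ℝ} (hL : 0 ≤ L)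
    (hb : ∀ v : Fin n → ℝ, |v ⬝ᵥ (K *ᵥ v)| ≤ L * ∑ i, v i ^ 2) (p : Fin n → ℝ) :
    ∑ i, (K *ᵥ p) i ^ 2 ≤ L ^ 2 * ∑ i, p i ^ 2 := by
  set w := K *ᵥ p with hw
  have hsym : ∀ u v : Fin n → ℝ, v ⬝ᵥ (K *ᵥ u) = u ⬝ᵥ (K *ᵥ v) := fun u v => by
    rw [Matrix.dotProduct_mulVec, ← Matrix.mulVec_transpose, hK, dotProduct_comm]
  have key : ∀ t : ℝ, 4 * t * (w ⬝ᵥ w) ≤ 2 * L * (∑ i, w i ^ 2 + t ^ 2 * ∑ i, p i ^ 2) := fun t => by
    have h1 := (abs_le.1 (hb (w + t • p))).2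
    have h2 := (abs_le.1 (hb (w - t • p))).1
    have e1 : (w + t • p) ⬝ᵥ (K *ᵥ (w + t • p)) - (w - t • p) ⬝ᵥ (K *ᵥ (w - t • p)) = 4 * t * (w ⬝ᵥ w) := by
      rw [Matrix.mulVec_add, Matrix.mulVec_sub, Matrix.mulVec_smul]
      simp only [add_dotProduct, dotProduct_add, sub_dotProduct, dotProduct_sub, smul_dotProduct,
        dotProduct_smul, smul_eq_mul]
      rw [hsym w p, ← hw]
      ring
    have e2 : ∑ i, (w + t • p) i ^ 2 + ∑ i, (w - t • p) i ^ 2
        = 2 * (∑ i, w i ^ 2 + t ^ 2 * ∑ i, p i ^ 2) := by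
      rw [mul_sum, ← sum_add_distrib, ← sum_add_distrib, mul_sum]
      exact sum_congr rfl fun i _ => by simp; ring
    have h3 := congrArg (L * ·) e2
    simp only [mul_add] at h3
    linarith
  have hww : w ⬝ᵥ w = ∑ i, w i ^ 2 := sum_congr rfl fun i _ => (sq (w i)).symm
  rcases hL.eq_or_lt with h | h
  · have := key 1
    rw [hww, ← h] at this
    rw [← h]
    linarith
  · have := key L
    rw [hww] at this
    refine le_of_mul_le_mul_left ?_ h
    linarith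

theorem sym_col_sq_le {K : Matrix (Fin n) (Fin n) ℝ} (hK : K.transpose = K) {L : ℝ} (hL : 0 ≤ L)
    (hb : ∀ v : Fin n → ℝ, |v ⬝ᵥ (K *ᵥ v)| ≤ L * ∑ i, v i ^ 2) (j : Fin n) :
    ∑ i, K i j ^ 2 ≤ L ^ 2 := by
  have h := sym_mulVec_sq_le hK hL hb (Pi.single j 1)
  simpa [Matrix.mulVec_single, Pi.single_apply] using h

theorem abs_matrix_sq_le {K : Matrix (Fin n) (Fin n) ℝ} (hK : K.transpose = K) {L : ℝ} (hL : 0 ≤ L)
    (hb : ∀ v : Fin n → ℝ, |v ⬝ᵥ (K *ᵥ v)| ≤ L * ∑ i, v i ^ 2) (c : Fin n → ℝ) :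
    ∑ j, (∑ i, |c i| * K i j ^ 2) ^ 2 ≤ L ^ 4 * ∑ i, c i ^ 2 := by
  have hrow : ∀ i, ∑ j, K i j ^ 2 ≤ L ^ 2 := fun i => by
    refine le_of_eq_of_le (sum_congr rfl fun j _ => ?_) (sym_col_sq_le hK hL hb i)
    conv_lhs => rw [← hK, Matrix.transpose_apply]
  calc ∑ j, (∑ i, |c i| * K i j ^ 2) ^ 2
      ≤ ∑ j, (∑ i, c i ^ 2 * K i j ^ 2) * ∑ i, K i j ^ 2 := by
        refine sum_le_sum fun j _ => ?_
        refine sum_sq_le_sum_mul_sum_of_sq_eq_mul _ (fun i _ => mul_nonneg (sq_nonneg _) (sq_nonneg _))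
          (fun i _ => sq_nonneg _) fun i _ => ?_
        rw [mul_pow, sq_abs]; ring
    _ ≤ ∑ j, (∑ i, c i ^ 2 * K i j ^ 2) * L ^ 2 := sum_le_sum fun j _ =>
        mul_le_mul_of_nonneg_left (sym_col_sq_le hK hL hb j)
          (sum_nonneg fun i _ => mul_nonneg (sq_nonneg _) (sq_nonneg _))
    _ = (∑ i, c i ^ 2 * ∑ j, K i j ^ 2) * L ^ 2 := by
        rw [← sum_mul, sum_comm]
        simp only [mul_sum]
    _ ≤ (∑ i, c i ^ 2 * L ^ 2) * L ^ 2 := mul_le_mul_of_nonneg_right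
        (sum_le_sum fun i _ => mul_le_mul_of_nonneg_left (hrow i) (sq_nonneg _)) (sq_nonneg _)
    _ = _ := by rw [← sum_mul]; ring

theorem inv_mulVec_sq_le {A : Matrix (Fin n) (Fin n) ℝ} (hA : A.PosDef) {lam : ℝ} (hlam : 0 < lam)
    (hl : ∀ v : Fin n → ℝ, lam * ∑ i, v i ^ 2 ≤ v ⬝ᵥ (A *ᵥ v)) (p : Fin n → ℝ) :
    ∑ i, (A⁻¹ *ᵥ p) i ^ 2 ≤ 1 / lam ^ 2 * ∑ i, p i ^ 2 := by
  set w := A⁻¹ *ᵥ p with hw
  have hAw : A *ᵥ w = p := by
    rw [hw, Matrix.mulVec_mulVec, Matrix.mul_nonsing_inv _ (Ne.isUnit hA.det_pos.ne'), Matrix.one_mulVec]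
  have h1 := hl w
  rw [hAw] at h1
  have h2 : (w ⬝ᵥ p) ^ 2 ≤ (∑ i, w i ^ 2) * ∑ i, p i ^ 2 := sum_mul_sq_le_sq_mul_sq _ _ _
  have h3 : 0 ≤ ∑ i, w i ^ 2 := sum_nonneg fun i _ => sq_nonneg _
  have h4 := (pow_le_pow_left₀ (mul_nonneg hlam.le h3) h1 2).trans h2
  rw [one_div, le_inv_mul_iff₀ (by positivity)]
  rcases h3.eq_or_lt with h | h
  · rw [← h, mul_zero]; exact sum_nonneg fun i _ => sq_nonneg _
  · refine le_of_mul_le_mul_left ?_ h
    linarith

theorem mulVec_update (K : Matrix (Fin n) (Fin n) ℝ) (z : Conf n) (j : Fin n) (b : Bool) (i : Fin n) :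
    (K *ᵥ vec (Function.update z j b)) i = (K *ᵥ vec z) i + K i j * (spin b - spin (z j)) := by
  simp only [Matrix.mulVec, dotProduct]
  rw [← add_sum_erase _ _ (mem_univ j), ← add_sum_erase _ (fun k => K i k * vec z k) (mem_univ j),
    sum_congr rfl fun k hk => show K i k * vec (Function.update z j b) k = K i k * vec z k by
      rw [vec, Function.update_of_ne (ne_of_mem_erase hk)]; rfl]
  simp only [vec, Function.update_self]
  ring

/-- Second-order expansion of the difference of a test across a spin. -/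
theorem test_diff {B : ℝ} {F F' F'' : ℝ → ℝ} (h1 : ∀ u, HasDerivAt F (F' u) u)
    (h2 : ∀ u, HasDerivAt F' (F'' u) u) (hb : ∀ u, |F'' u| ≤ B) (hB : 0 ≤ B) (a k : ℝ) (b : Bool) :
    |(F (a + k * (1 - spin b)) - F (a + k * (-1 - spin b))) / 2 - k * F' a| ≤ 2 * B * k ^ 2 := by
  have hlip : ∀ u, |F' u - F' a| ≤ B * |u - a| := fun u => by
    have := Convex.norm_image_sub_le_of_norm_hasDerivWithin_le (s := Set.univ)
      (fun t _ => (h2 t).hasDerivWithinAt) (fun t _ => by rw [Real.norm_eq_abs]; exact hb t) convex_univ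
      (Set.mem_univ a) (Set.mem_univ u)
    simpa using this
  have hd : ∀ t : ℝ, HasDerivAt (fun t => F (a + t) - t * F' a) (F' (a + t) - F' a) t := fun t => by
    have := ((h1 (a + t)).comp_const_add a t).sub ((hasDerivAt_id' t).mul_const (F' a))
    rwa [one_mul] at this
  have h := Convex.norm_image_sub_le_of_norm_hasDerivWithin_le (s := Set.Icc (-(2 * |k|)) (2 * |k|))
    (C := B * (2 * |k|)) (fun t _ => (hd t).hasDerivWithinAt) (fun t ht => by
      rw [Real.norm_eq_abs]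
      refine (hlip (a + t)).trans (mul_le_mul_of_nonneg_left ?_ hB)
      rw [add_sub_cancel_left]
      exact abs_le.2 ⟨ht.1, ht.2⟩)
    (convex_Icc _ _) (x := k * (-1 - spin b)) (y := k * (1 - spin b))
    (by constructor <;> cases b <;> simp [spin] <;> norm_num <;>
      linarith [le_abs_self k, neg_abs_le k, abs_nonneg k])
    (by constructor <;> cases b <;> simp [spin] <;> norm_num <;>
      linarith [le_abs_self k, neg_abs_le k, abs_nonneg k])
  simp only [Real.norm_eq_abs] at h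
  have e : k * (1 - spin b) - k * (-1 - spin b) = 2 * k := by ring
  rw [e, abs_mul, abs_two] at h
  have e2 : (F (a + k * (1 - spin b)) - F (a + k * (-1 - spin b))) / 2 - k * F' a
      = (F (a + k * (1 - spin b)) - k * (1 - spin b) * F' a
          - (F (a + k * (-1 - spin b)) - k * (-1 - spin b) * F' a)) / 2 := by ring
  rw [e2, abs_div, abs_two, div_le_iff₀ two_pos]
  calc _ ≤ _ := h
    _ = 4 * B * (|k| * |k|) := by ring
    _ = _ := by rw [abs_mul_abs_self]; ring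

/-- The gradient of a weighted sum of tests of the coupling field. -/
theorem base_grad {K : Matrix (Fin n) (Fin n) ℝ} (hK : K.transpose = K) {L : ℝ} (hL : 0 ≤ L)
    (hb : ∀ v : Fin n → ℝ, |v ⬝ᵥ (K *ᵥ v)| ≤ L * ∑ i, v i ^ 2) {B : ℝ} (hB : 0 ≤ B) {F : Fin n → ℝ → ℝ}
    (hF : ∀ i, SmoothBd B (F i)) (c : Fin n → ℝ) (z : Conf n) :
    grad2 (fun z => (n : ℝ)⁻¹ * ∑ i, c i * F i ((K *ᵥ vec z) i)) z
      ≤ (2 * L ^ 2 * B ^ 2 + 8 * B ^ 2 * L ^ 4) * ((∑ i, c i ^ 2) / (n : ℝ) ^ 2) := by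
  choose F' F'' h1 h2 hFc hbd using hF
  set p : Fin n → ℝ := fun i => c i * F' i ((K *ᵥ vec z) i) with hp
  set e : Fin n → ℝ := fun j => 2 * B * ∑ i, |c i| * K i j ^ 2 with he
  have hD : ∀ j, dgrad (fun z => (n : ℝ)⁻¹ * ∑ i, c i * F i ((K *ᵥ vec z) i)) j z ^ 2
      ≤ ((n : ℝ)⁻¹) ^ 2 * (2 * (K *ᵥ p) j ^ 2 + 2 * e j ^ 2) := fun j => by
    set d : Fin n → ℝ := fun i => (F i ((K *ᵥ vec z) i + K i j * (1 - spin (z j)))
      - F i ((K *ᵥ vec z) i + K i j * (-1 - spin (z j)))) / 2 with hd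
    have e1 : dgrad (fun z => (n : ℝ)⁻¹ * ∑ i, c i * F i ((K *ᵥ vec z) i)) j z
        = (n : ℝ)⁻¹ * ∑ i, c i * d i := by
      simp only [dgrad, mulVec_update, hd, spin, if_true, Bool.false_eq_true, if_false]
      rw [← mul_sub, ← sum_sub_distrib, mul_div_assoc, sum_div]
      congr 1
      exact sum_congr rfl fun i _ => by ring
    have e2 : (K *ᵥ p) j = ∑ i, K i j * p i := by
      simp only [Matrix.mulVec, dotProduct]
      exact sum_congr rfl fun i _ => by conv_lhs => rw [← hK, Matrix.transpose_apply]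
    have herr : |∑ i, c i * d i - (K *ᵥ p) j| ≤ e j := by
      rw [e2, ← sum_sub_distrib, he]
      simp only [mul_sum]
      refine (abs_sum_le_sum_abs _ _).trans (sum_le_sum fun i _ => ?_)
      rw [show c i * d i - K i j * p i = c i * (d i - K i j * F' i ((K *ᵥ vec z) i)) by simp [hp]; ring,
        abs_mul, mul_left_comm]
      exact mul_le_mul_of_nonneg_left (test_diff (h1 i) (h2 i) (fun u => (hbd i u).2.2) hB _ _ _) (abs_nonneg _)
    rw [e1, mul_pow]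
    refine mul_le_mul_of_nonneg_left ?_ (sq_nonneg _)
    have h3 := sq_le_sq.2 (herr.trans (le_abs_self (e j)))
    have := add_sq_le (a := ∑ i, c i * d i - (K *ᵥ p) j) (b := (K *ᵥ p) j)
    rw [sub_add_cancel] at this
    linarith
  refine (sum_le_sum fun j _ => hD j).trans ?_
  rw [← mul_sum, sum_add_distrib, ← mul_sum, ← mul_sum]
  have hp2 : ∑ i, p i ^ 2 ≤ B ^ 2 * ∑ i, c i ^ 2 := by
    rw [mul_sum]
    refine sum_le_sum fun i _ => ?_
    simp only [hp, mul_pow]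
    rw [mul_comm]
    exact mul_le_mul_of_nonneg_right (sq_le_sq.2 ((hbd i _).2.1.trans (le_abs_self B))) (sq_nonneg _)
  have h4 : ∑ j, (K *ᵥ p) j ^ 2 ≤ L ^ 2 * (B ^ 2 * ∑ i, c i ^ 2) :=
    (sym_mulVec_sq_le hK hL hb p).trans (mul_le_mul_of_nonneg_left hp2 (sq_nonneg L))
  have h5 : ∑ j, e j ^ 2 ≤ 4 * B ^ 2 * (L ^ 4 * ∑ i, c i ^ 2) := by
    simp only [he, mul_pow, ← mul_sum]
    refine le_of_eq_of_le ?_ (mul_le_mul_of_nonneg_left (abs_matrix_sq_le hK hL hb c) (by positivity))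
    ring
  refine (mul_le_mul_of_nonneg_left (add_le_add (mul_le_mul_of_nonneg_left h4 zero_le_two)
    (mul_le_mul_of_nonneg_left h5 zero_le_two)) (sq_nonneg _)).trans_eq ?_
  rw [inv_pow]
  ring

/-- The chain rule for a function of two real variables. -/
theorem two_var_deriv {ψ d₁ d₂ : ℝ → ℝ → ℝ} (hc₁ : Continuous fun p : ℝ × ℝ => d₁ p.1 p.2)
    (hc₂ : Continuous fun p : ℝ × ℝ => d₂ p.1 p.2) (h₁ : ∀ u v, HasDerivAt (fun t => ψ t v) (d₁ u v) u)
    (h₂ : ∀ u v, HasDerivAt (fun t => ψ u t) (d₂ u v) v) :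
    Continuous (fun p : ℝ × ℝ => ψ p.1 p.2) ∧ ∀ u v a b : ℝ,
      HasDerivAt (fun t : ℝ => ψ (u + t * a) (v + t * b)) (d₁ u v * a + d₂ u v * b) 0 := by
  have hs : ∀ p : ℝ × ℝ, HasStrictFDerivAt (fun q : ℝ × ℝ => ψ q.1 q.2)
      ((ContinuousLinearMap.toSpanSingleton ℝ (d₁ p.1 p.2)).coprod
        (ContinuousLinearMap.toSpanSingleton ℝ (d₂ p.1 p.2))) p := fun p =>
    hasStrictFDerivAt_uncurry_coprod (f := ψ)
      (f₁ := fun a b => ContinuousLinearMap.toSpanSingleton ℝ (d₁ a b))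
      (f₂ := fun a b => ContinuousLinearMap.toSpanSingleton ℝ (d₂ a b))
      (Filter.Eventually.of_forall fun q => hasDerivAt_iff_hasFDerivAt.1 (h₁ q.1 q.2))
      (Filter.Eventually.of_forall fun q => hasDerivAt_iff_hasFDerivAt.1 (h₂ q.1 q.2))
      ((((ContinuousLinearMap.toSpanSingletonLE ℝ ℝ ℝ).toLinearMap.continuous_of_finiteDimensional).comp hc₁).continuousAt)
      ((((ContinuousLinearMap.toSpanSingletonLE ℝ ℝ ℝ).toLinearMap.continuous_of_finiteDimensional).comp hc₂).continuousAt)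
  refine ⟨continuous_iff_continuousAt.2 fun p => (hs p).hasFDerivAt.continuousAt, fun u v a b => ?_⟩
  have hl : ∀ w c : ℝ, HasDerivAt (fun t : ℝ => w + t * c) c 0 := fun w c => by
    simpa using ((hasDerivAt_id' (0 : ℝ)).mul_const c).const_add w
  have h := ((hs (u + 0 * a, v + 0 * b)).hasFDerivAt).comp_hasDerivAt (0 : ℝ) ((hl u a).prodMk (hl v b))
  refine h.congr_deriv ?_
  simp [mul_comm]

end Vale.Agent.P150.Fast
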